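import Mathlib
import Vale.Agent.P309.Learner
import Vale.Agent.P309.Final

open MeasureTheory ProbabilityTheory Metric P309
open scoped ENNReal RealInnerProductSpace

namespace Vale.Agent.Results.P309.LowerBound

/-- Memory-sample tradeoff for noiseless Gaussian linear regression (Q1, yes).  For every `A > 0`
there are `c' > 0`, `ε₀ > 0` and `d₀` such that for all `d ≥ d₀`, all `0 < ε ≤ ε₀`, all real
`M ≤ A d²`, every horizon `T` and every learner with at most `2^M` persistent states (arbitrary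
measurable randomized transitions and stopping decisions), success at accuracy `ε` (angle at most
`ε` with probability at least `2/3` for a uniform signal) forces `T ≥ c' d log (1/ε)`. -/
theorem result : ∀ A : ℝ, 0 < A →
    ∃ c' : ℝ, 0 < c' ∧ ∃ ε₀ : ℝ, 0 < ε₀ ∧ ∃ d₀ : ℕ, ∀ d : ℕ, d₀ ≤ d →
      ∀ ε : ℝ, 0 < ε → ε ≤ ε₀ → ∀ M : ℝ, M ≤ A * (d : ℝ) ^ 2 →
      ∀ T n : ℕ, (n : ℝ) ≤ 2 ^ M →
      ∀ (Ω : Type) [MeasurableSpace Ω] (P : Measure Ω) [IsProbabilityMeasure P]
        (B : Learner d Ω n), B.Succeeds P T ε →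
      c' * d * Real.log (1 / ε) ≤ T := by
  intro A hA
  obtain ⟨d₁, hd₁⟩ := exists_d1 A hA
  set C : ℝ := 12 * A + 8 with hC
  have hC8 : 8 ≤ C := by linarith
  set L₀ : ℕ := ⌈8 * C⌉₊ with hL₀
  have hL₀' : 8 * C ≤ L₀ := Nat.le_ceil _
  refine ⟨1 / (192 * C), by positivity, 1 / 2 ^ L₀, by positivity, max 64 d₁, ?_⟩
  intro d hd ε hε0 hε M hM T n hn Ω _ P _ B hB
  have hd64 : 64 ≤ d := le_trans (le_max_left _ _) hd
  have hdd₁ : d₁ ≤ d := le_trans (le_max_right _ _) hd
  have hd0 : 0 < d := by omega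
  have hn' : (n : ℝ) ≤ (2:ℝ) ^ (A * (d : ℝ) ^ 2) :=
    hn.trans (Real.rpow_le_rpow_of_exponent_le (by norm_num) hM)
  -- choice of L
  have hεinv : (2:ℝ) ^ L₀ ≤ 1 / ε := by
    rw [le_div_iff₀ hε0]
    have := mul_le_mul_of_nonneg_left hε (by positivity : (0:ℝ) ≤ 2 ^ L₀)
    rwa [mul_one_div, div_self (by positivity)] at this
  have h1le : (1:ℝ) ≤ 1 / ε := le_trans (one_le_pow₀ (by norm_num)) hεinv
  obtain ⟨L, hL1, hL2⟩ := exists_nat_pow_near h1le (by norm_num : (1:ℝ) < 2)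
  have hLL₀ : L₀ ≤ L := by
    by_contra hlt
    push Not at hlt
    have h3 : (2:ℝ) ^ (L + 1) ≤ 2 ^ L₀ := pow_le_pow_right₀ (by norm_num) hlt
    linarith
  have hLC : 8 * C ≤ L := hL₀'.trans (by exact_mod_cast hLL₀)
  have hL64 : (64:ℝ) ≤ L := by linarith
  have hε2 : ε ≤ 1 / 2 ^ L := by
    rw [le_div_iff₀ (by positivity), mul_comm]
    rwa [le_div_iff₀ hε0] at hL1
  have hε1 : ε ≤ 1 := by
    rwa [le_div_iff₀ hε0, one_mul] at h1le
  -- the logarithm
  set x : ℝ := Real.log (1 / ε) with hx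
  have hxexp : Real.exp (-x) = ε := by
    rw [hx, Real.exp_neg, Real.exp_log (by positivity), one_div, inv_inv]
  have hlog2 : (1:ℝ) / 2 ≤ Real.log 2 := by
    have := Real.log_two_gt_d9; linarith
  have hlog2' : Real.log 2 ≤ 1 := by
    have := Real.log_two_lt_d9; linarith
  have hx1 : (L:ℝ) / 2 ≤ x := by
    have : Real.log (2 ^ L) ≤ x := Real.log_le_log (by positivity) hL1
    rw [Real.log_pow] at this
    have h4 : (L:ℝ) * (1 / 2) ≤ L * Real.log 2 := by gcongr
    linarith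
  have hx2 : x ≤ 2 * L := by
    have : x ≤ Real.log (2 ^ (L + 1)) := Real.log_le_log (by positivity) hL2.le
    rw [Real.log_pow] at this
    have h4 : ((L + 1 : ℕ) : ℝ) * Real.log 2 ≤ ((L + 1 : ℕ) : ℝ) * 1 := by gcongr
    push_cast at this h4
    linarith
  have hx0 : 0 ≤ x := by linarith
  -- a good seed
  obtain ⟨ω, hω⟩ := exists_seed hd0 B P T ε hB
  have hσ := sphLike_unif hd0
  have hn0 : 0 < n := (Nat.zero_le _).trans_lt (B.init ω).2
  by_cases hcase : (L:ℝ) ≤ (8 * A + 18) * d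
  · -- main case
    set h : ℕ := d / 16 with hh
    have hh0 : 0 < h := by omega
    have hhd : 16 * h ≤ d := by omega
    have hdh : d ≤ 24 * h := by omega
    have hL3 : (L:ℝ) + 2 ≤ 2 ^ d := by
      have := hd₁ d hdd₁
      linarith
    set N : ℕ := T / (2 * h) + 1 with hN
    have hTN : T ≤ N * (2 * h) := by
      have := Nat.lt_mul_div_succ T (by omega : 0 < 2 * h)
      rw [hN, mul_comm]
      exact this.le
    have hNT : (N : ℝ) ≤ T / (2 * h) + 1 := by
      rw [hN]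
      push_cast
      have : ((T / (2 * h) : ℕ) : ℝ) ≤ (T:ℝ) / ((2 * h : ℕ) : ℝ) := Nat.cast_div_le
      push_cast at this
      linarith
    have hk1 := key1 (q := 2 * h) (L := L) (by omega) (by omega) hσ hn0 B hε2 ω hTN
      (B.init ω) hω
    have hK0 : 0 ≤ Kc ((2 * h + 2) * n) (2 * h) d L :=
      le_trans zero_le_one (one_le_Kc (by positivity))
    have hfin := numeric1 hA hh0 hhd hdh hK0 (Kc_le hA hh0 hhd hdh hn0 hn' hL3) hLC hNT hk1
    have hdpos : (0:ℝ) < d := by exact_mod_cast hd0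
    calc 1 / (192 * C) * d * x ≤ 1 / (192 * C) * d * (2 * L) := by gcongr
      _ = (d : ℝ) * L / (96 * C) := by field_simp; ring
      _ ≤ T := hfin
  · push Not at hcase
    have hk2 := key2 hd0 hσ B hε0 hε1 ω (B.init ω) hω
    rw [← hxexp] at hk2
    have hxx : (4 * A + 8) * (d:ℝ) ≤ x := by
      have hdpos : (0:ℝ) < d := by exact_mod_cast hd0
      nlinarith
    have hfin := numeric2 hA (by omega) hn' hxx hk2
    have hdpos : (0:ℝ) < d := by exact_mod_cast hd0
    calc 1 / (192 * C) * d * x ≤ 1 / 2 * d * x := by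
          gcongr
          linarith
      _ = (d:ℝ) * x / 2 := by ring
      _ ≤ T := hfin

end Vale.Agent.Results.P309.LowerBound
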